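import Vale.Agent.P342.Red

/-! For every fixed `c ≥ 3`, 3-SAT reduces in polynomial time to distinguishing 3-colourable
graphs from graphs that are not `c`-colourable. -/

namespace Vale.Agent.Results.P342.ThreeVsC

open Vale.Agent.Lib.PCP Vale.Agent.P342

theorem result (c : ℕ) (hc : 3 ≤ c) :
    ∃ red : CNF3 → List (List Bool), PolyTime red ∧ ∀ φ : CNF3,
      (Sat φ → (toGraph (red φ)).Colorable 3) ∧
      (¬ Sat φ → ¬ (toGraph (red φ)).Colorable c) :=
  hardness c (by omega)

end Vale.Agent.Results.P342.ThreeVsC
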